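import Vale.Agent.P181.H622U.Merge
import Vale.Agent.P181.DX.H556.SecA

set_option autoImplicit false

/-!
# P181: `UniAll`, `UniY`, `SecA` and `FatLog` in one sentence
-/

namespace Vale.Agent.P181.H622U

open Vale.Agent.P181.T4 (ex)
open Vale.Agent.P181.H280 (plethMult)
open Vale.Agent.P181.PL (dn)
open Vale.Agent.P181.DX.H556 (UniY UniAll SecA FatLog secA_of)

/-- The alternatives, `P = C (1 + log a) ^ c`. -/
def AltA (P : ℝ) (a b n : ℕ) (lam : Fin n → ℕ) : Prop :=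
  dn lam 1 ≤ b ∨ (dn lam 1 ≤ 2 * a ∧ (dn lam 1 < 2 * a ∨ a + 2 ≤ b)) ∨ a + dn lam 2 ≤ b + 1 ∨
    P * (dn lam 1 : ℝ) ≤ (b : ℝ) ^ 2 ∨
    P * max (b : ℝ) (ex lam 1) ≤ b * ((b : ℝ) - a) ∨
    P * (b : ℝ) ^ 2 ≤ ((b : ℝ) - a) * ∑ i, ((min b (lam i) : ℕ) : ℝ)

theorem mainA (hA : UniAll) (hY : UniY) (hF : FatLog) : ∃ (C : ℝ) (c : ℕ), 1 ≤ C ∧
    ∀ a b : ℕ, a ≤ b → ∀ (n : ℕ) (lam : Fin n → ℕ),
      AltA (C * (1 + Real.log a) ^ c) a b n lam → plethMult a b n lam ≤ plethMult b a n lam := by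
  obtain ⟨C2, c2, hC2, h2⟩ := secA_of hA hF
  obtain ⟨C1, c1, hC1, h1⟩ := hA
  obtain ⟨C3, c3, hC3, h3⟩ := hF
  obtain ⟨C0, c0, -, h0⟩ := hY
  refine ⟨C1 + (C2 + C3), c1 + (c2 + c3), by linarith, fun a b hab n lam h => ?_⟩
  have hL : 1 ≤ 1 + Real.log a := by linarith [Real.log_natCast_nonneg a]
  have e1 : C1 * (1 + Real.log a) ^ c1 ≤ (C1 + (C2 + C3)) * (1 + Real.log a) ^ (c1 + (c2 + c3)) :=
    le_P (by linarith) (by linarith) hL
  have e2 : C2 * (1 + Real.log a) ^ c2 ≤ (C1 + (C2 + C3)) * (1 + Real.log a) ^ (c1 + (c2 + c3)) := by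
    have e := le_P (C := C2) (C' := C1 + C3) (c := c2) (c' := c1 + c3) (by linarith) (by linarith) hL
    have e' : C2 + (C1 + C3) = C1 + (C2 + C3) := by ring
    have e'' : c2 + (c1 + c3) = c1 + (c2 + c3) := by ring
    rw [e', e''] at e
    exact e
  have e3 : C3 * (1 + Real.log a) ^ c3 ≤ (C1 + (C2 + C3)) * (1 + Real.log a) ^ (c1 + (c2 + c3)) := by
    have e := le_P (C := C3) (C' := C1 + C2) (c := c3) (c' := c1 + c2) (by linarith) (by linarith) hL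
    have e' : C3 + (C1 + C2) = C1 + (C2 + C3) := by ring
    have e'' : c3 + (c1 + c2) = c1 + (c2 + c3) := by ring
    rw [e', e''] at e
    exact e
  obtain ⟨P, hP⟩ : ∃ P : ℝ, P = (C1 + (C2 + C3)) * (1 + Real.log a) ^ (c1 + (c2 + c3)) := ⟨_, rfl⟩
  rw [← hP] at e1 e2 e3 h
  have hw : (0 : ℝ) ≤ (dn lam 1 : ℝ) := Nat.cast_nonneg _
  have hb : (0 : ℝ) ≤ (b : ℝ) := Nat.cast_nonneg _
  have hm : (0 : ℝ) ≤ max (b : ℝ) (ex lam 1) := le_max_of_le_left hb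
  rcases h with h | h | h | h | h | h
  · exact h0 a b hab n lam (Or.inl h)
  · exact h0 a b hab n lam (Or.inr (Or.inl h))
  · exact h0 a b hab n lam (Or.inr (Or.inr (Or.inl h)))
  · exact h1 a b hab n lam ((mul_le_mul_of_nonneg_right e1 hw).trans h)
  · exact h2 a b hab n lam ((mul_le_mul_of_nonneg_right e2 hm).trans h)
  · exact h3 a b n lam hab ((mul_le_mul_of_nonneg_right e3 (by positivity)).trans h)

end Vale.Agent.P181.H622U
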