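import Vale.Agent.P181.H622U.MergeA
import Vale.Agent.P181.RH.UDefs

set_option autoImplicit false

/-!
# P181: `mainA` and `NearA` in one sentence
-/

namespace Vale.Agent.P181.H622U

open Vale.Agent.P181.T4 (ex)
open Vale.Agent.P181.H280 (plethMult)
open Vale.Agent.P181.PL (dn)
open Vale.Agent.P181.DX.H556 (UniY UniAll SecA FatLog secA_of)

lemma altA_mono {P P' : ℝ} (hP : P ≤ P') {a b n : ℕ} {lam : Fin n → ℕ}
    (h : AltA P' a b n lam) : AltA P a b n lam := by
  have hw : (0 : ℝ) ≤ (dn lam 1 : ℝ) := Nat.cast_nonneg _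
  have hb : (0 : ℝ) ≤ (b : ℝ) := Nat.cast_nonneg _
  have hm : (0 : ℝ) ≤ max (b : ℝ) (ex lam 1) := le_max_of_le_left hb
  rcases h with h | h | h | h | h | h
  · exact Or.inl h
  · exact Or.inr (Or.inl h)
  · exact Or.inr (Or.inr (Or.inl h))
  · exact Or.inr (Or.inr (Or.inr (Or.inl ((mul_le_mul_of_nonneg_right hP hw).trans h))))
  · exact Or.inr (Or.inr (Or.inr (Or.inr (Or.inl ((mul_le_mul_of_nonneg_right hP hm).trans h)))))
  · exact Or.inr (Or.inr (Or.inr (Or.inr (Or.inr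
      ((mul_le_mul_of_nonneg_right hP (by positivity)).trans h)))))

theorem mainB (hA : UniAll) (hY : UniY) (hF : FatLog) (hN : RH.NearA) :
    ∃ (C : ℝ) (c : ℕ), 1 ≤ C ∧ ∀ a b : ℕ, a ≤ b → ∀ (n : ℕ) (lam : Fin n → ℕ),
      (AltA (C * (1 + Real.log a) ^ c) a b n lam ∨
        C * b * Real.log (2 + Real.log a) ≤ ((b : ℝ) - a) * Real.log ((dn lam 2 : ℝ) / a)) →
      plethMult a b n lam ≤ plethMult b a n lam := by
  obtain ⟨C1, c1, hC1, h1⟩ := mainA hA hY hF
  obtain ⟨C2, hC2, h2⟩ := hN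
  refine ⟨C1 + C2, c1, by linarith, fun a b hab n lam h => ?_⟩
  have hlog : 0 ≤ Real.log a := Real.log_natCast_nonneg a
  rcases h with h | h
  · refine h1 a b hab n lam (altA_mono (le_P (C' := C2) (c' := 0) (by linarith) (by linarith)
      (by linarith)) h)
  · refine h2 a b hab n lam (le_trans ?_ h)
    have h3 : 0 ≤ Real.log (2 + Real.log a) := Real.log_nonneg (by linarith)
    have hb : (0 : ℝ) ≤ (b : ℝ) := Nat.cast_nonneg _
    have h4 : C2 * (b : ℝ) ≤ (C1 + C2) * b := mul_le_mul_of_nonneg_right (by linarith) hb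
    exact mul_le_mul_of_nonneg_right h4 h3

end Vale.Agent.P181.H622U
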