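import Vale.Agent.P181.H622U.MergeB

set_option autoImplicit false

/-!
# P181: `mainA` and `RhoU` in one sentence
-/

namespace Vale.Agent.P181.H622U

open Vale.Agent.P181.H280 (plethMult)
open Vale.Agent.P181.PL (dn)
open Vale.Agent.P181.DX.H556 (UniY UniAll FatLog)

theorem mainC (hA : UniAll) (hY : UniY) (hF : FatLog)
    (hR : ∃ C : ℝ, 0 < C ∧ ∀ a b : ℕ, a < b → ∀ (n : ℕ) (lam : Fin n → ℕ),
      C * b * Real.log (2 * b / ((b : ℝ) - a)) ≤
        ((b : ℝ) - a) * Real.log ((dn lam 1 : ℝ) * dn lam 2 / (b : ℝ) ^ 3) →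
      plethMult a b n lam ≤ plethMult b a n lam) :
    ∃ (C : ℝ) (c : ℕ), 1 ≤ C ∧ ∀ a b : ℕ, a ≤ b → ∀ (n : ℕ) (lam : Fin n → ℕ),
      (AltA (C * (1 + Real.log a) ^ c) a b n lam ∨
        (a < b ∧ C * b * Real.log (2 * b / ((b : ℝ) - a)) ≤
          ((b : ℝ) - a) * Real.log ((dn lam 1 : ℝ) * dn lam 2 / (b : ℝ) ^ 3))) →
      plethMult a b n lam ≤ plethMult b a n lam := by
  obtain ⟨C1, c1, hC1, h1⟩ := mainA hA hY hF
  obtain ⟨C2, hC2, h2⟩ := hR
  refine ⟨C1 + C2, c1, by linarith, fun a b hab n lam h => ?_⟩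
  have hlog : 0 ≤ Real.log a := Real.log_natCast_nonneg a
  rcases h with h | ⟨hlt, h⟩
  · exact h1 a b hab n lam (altA_mono (le_P (C' := C2) (c' := 0) (by linarith) (by linarith)
      (by linarith)) h)
  · refine h2 a b hlt n lam (le_trans ?_ h)
    have hb : (0 : ℝ) ≤ (b : ℝ) := Nat.cast_nonneg _
    have ha : (0 : ℝ) ≤ (a : ℝ) := Nat.cast_nonneg _
    have hlt' : (a : ℝ) < b := by exact_mod_cast hlt
    have h3 : 0 ≤ Real.log (2 * b / ((b : ℝ) - a)) := by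
      refine Real.log_nonneg ?_
      rw [one_le_div (by linarith)]
      linarith
    have h4 : C2 * (b : ℝ) ≤ (C1 + C2) * b := mul_le_mul_of_nonneg_right (by linarith) hb
    exact mul_le_mul_of_nonneg_right h4 h3

end Vale.Agent.P181.H622U
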