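import Vale.Agent.P181.H622U.Defs
import Vale.Agent.P181.DU9.H924.WU.Main

set_option autoImplicit false

/-!
# P181: one sentence from `PolyS`, `WU924.DiagW` and the theorem for `w ≤ 2 a`
-/

namespace Vale.Agent.P181.H622U

open Vale.Agent.P181.H280 (plethMult)
open Vale.Agent.P181.PL (dn PolyS)
open Vale.Agent.P181.T4 (ex)
open Vale.Agent.P181.DU.WU924 (DiagW Alt)

/-- The union, version W. -/
def UniW : Prop := ∃ (C : ℝ) (c : ℕ), 0 < C ∧ ∀ a b : ℕ,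
  (a : ℝ) + C * (1 + Real.log a) ^ c ≤ b → ∀ (n : ℕ) (lam : Fin n → ℕ),
  C * (1 + Real.log a) ^ c * (dn lam 1 : ℝ) ≤ (b : ℝ) ^ 2 →
  (dn lam 1 ≤ 2 * a ∨ dn lam 1 ≤ b ∨ a + dn lam 2 ≤ b + 1 ∨
    (C * (1 + Real.log a) ^ c * (dn lam 1 : ℝ) ≤ (dn lam 2 : ℝ) ^ 2 ∧
      C * (1 + Real.log a) ^ c * (dn lam 1 : ℝ) ≤ ((dn lam 1 : ℝ) - a - ex lam 2) ^ 2)) →
  plethMult a b n lam ≤ plethMult b a n lam

theorem uniW_of (hP : PolyS) (hT : TwiceS) (hD : DiagW) : UniW := by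
  obtain ⟨C1, c1, hC1, h1⟩ := hP
  obtain ⟨C2, c2, hC2, h2⟩ := hD
  refine ⟨(C2 + 2) * (1 + C1) ^ 2, c2 + 2 * c1, by positivity,
    fun a b hab n lam h hd => ?_⟩
  obtain ⟨L, hL⟩ : ∃ L : ℝ, L = 1 + Real.log a := ⟨_, rfl⟩
  have hL1 : 1 ≤ L := by
    rw [hL]
    linarith [Real.log_natCast_nonneg a]
  rw [← hL] at h hab hd
  have hLc : 1 ≤ L ^ (2 * c1) := one_le_pow₀ hL1
  have hLc2 : 1 ≤ L ^ c2 := one_le_pow₀ hL1
  have hC12 : 1 ≤ (1 + C1) ^ 2 := one_le_pow₀ (by linarith)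
  have hw0 : (0 : ℝ) ≤ (dn lam 1 : ℝ) := Nat.cast_nonneg _
  have h5 : 1 ≤ (1 + C1) ^ 2 * L ^ (2 * c1) := one_le_mul_of_one_le_of_one_le hC12 hLc
  obtain ⟨M, hM⟩ : ∃ M : ℝ, M = (1 + C1) ^ 2 * L ^ (2 * c1) := ⟨_, rfl⟩
  rw [← hM] at h5
  have hC : (C2 + 2) * (1 + C1) ^ 2 * L ^ (c2 + 2 * c1) = (C2 + 2) * L ^ c2 * M := by
    rw [hM, pow_add]
    ring
  rw [hC] at h hab hd
  have h6 : C2 * L ^ c2 ≤ (C2 + 2) * L ^ c2 * M := by
    have h7 : 0 ≤ (C2 + 2) * L ^ c2 := by positivity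
    nlinarith
  have h8 : (2 : ℝ) ≤ (C2 + 2) * L ^ c2 * M := by
    have h9 : 2 ≤ (C2 + 2) * L ^ c2 := by nlinarith
    nlinarith
  have hab2 : a + 2 ≤ b := by
    have h10 : (a : ℝ) + 2 ≤ b := by linarith
    exact_mod_cast h10
  by_cases hw : dn lam 1 ≤ 2 * a
  · exact hT a b (by omega) n lam hw (Or.inr hab2)
  by_cases hwb : dn lam 1 ≤ b
  · exact h2 a b (by omega) n lam (Or.inl hwb)
  by_cases hb : C1 * a * (1 + Real.log a) ^ c1 ≤ b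
  · exact h1 a b hb n lam
  rw [← hL] at hb
  push Not at hb
  have h20 : C2 * L ^ c2 * (dn lam 1 : ℝ) ≤ (C2 + 2) * L ^ c2 * M * (dn lam 1 : ℝ) :=
    mul_le_mul_of_nonneg_right h6 hw0
  refine h2 a b (by omega) n lam (Or.inr ⟨?_, by omega, ?_, ?_⟩)
  · rw [← hL]
    linarith
  · rw [← hL]
    have ha0 : (0 : ℝ) ≤ a := Nat.cast_nonneg _
    have hb0 : (0 : ℝ) ≤ b := Nat.cast_nonneg _
    have h11 : (b : ℝ) ^ 2 ≤ M * (a : ℝ) ^ 2 := by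
      calc (b : ℝ) ^ 2 ≤ (C1 * a * L ^ c1) ^ 2 := pow_le_pow_left₀ hb0 hb.le 2
        _ = C1 ^ 2 * L ^ (2 * c1) * (a : ℝ) ^ 2 := by
            rw [mul_pow, mul_pow, ← pow_mul, mul_comm c1 2]
            ring
        _ ≤ M * (a : ℝ) ^ 2 := by
            rw [hM]
            have h12 : C1 ^ 2 ≤ (1 + C1) ^ 2 := by nlinarith
            have h13 : 0 ≤ L ^ (2 * c1) := by positivity
            exact mul_le_mul_of_nonneg_right (mul_le_mul_of_nonneg_right h12 h13)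
              (by positivity)
    have hM0 : 0 < M := by linarith
    have h14 : M * (C2 * L ^ c2 * (dn lam 1 : ℝ)) ≤ M * (a : ℝ) ^ 2 := by
      calc M * (C2 * L ^ c2 * (dn lam 1 : ℝ)) ≤
            M * ((C2 + 2) * L ^ c2 * (dn lam 1 : ℝ)) := by
            apply mul_le_mul_of_nonneg_left _ hM0.le
            have h15 : 0 ≤ L ^ c2 * (dn lam 1 : ℝ) := by positivity
            nlinarith
        _ = (C2 + 2) * L ^ c2 * M * (dn lam 1 : ℝ) := by ring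
        _ ≤ (b : ℝ) ^ 2 := h
        _ ≤ M * (a : ℝ) ^ 2 := h11
    exact le_of_mul_le_mul_left h14 hM0
  · rcases hd with hd | hd | hd | ⟨hd1, hd2⟩
    · exact absurd hd hw
    · exact absurd hd hwb
    · exact Or.inl (by omega)
    · rw [← hL]
      exact Or.inr ⟨h20.trans hd1, h20.trans hd2⟩

end Vale.Agent.P181.H622U
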